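import Mathlib
import Vale.Agent.Lib.P065.Defs
import Vale.Agent.Lib.P065.KDefs
import Vale.Agent.Lib.P065.helper19.Cover
import Vale.Agent.Lib.P065.helper19.CoverK

namespace Vale.Agent.Results.P065.ConvexCover

open Vale.Agent.Lib.P065

/-- Let `P` be a finite planar point set with no three collinear points, coloured with `κ`
colours (`c p < κ`) so that every colour class is in strictly convex position: for every point
`b` of `P` there is a line through `b` with all other points of the colour class of `b` strictly
on one side. Nothing is assumed about how the classes lie relative to each other. Then the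
number `h` of halving lines of `P` satisfies `2 * h + |P| ≤ 2 * κ * |P|`, that is
`h ≤ (κ - 1/2) * |P|`, and for every `1 ≤ k ≤ |P| - 1` the number of `k`-sets of `P` is at most
`(2 * κ - 1) * |P|` (both with equality for point sets in convex position, `κ = 1`). -/
theorem result (P : Finset (ℝ × ℝ)) (hP : GenPos P) (κ : ℕ) (c : ℝ × ℝ → ℕ)
    (hc : ∀ p ∈ P, c p < κ)
    (hconv : ∀ b ∈ P, ∃ v : ℝ × ℝ, ∀ q ∈ P, q ≠ b → c q = c b →
      0 < v.1 * (q.1 - b.1) + v.2 * (q.2 - b.2)) :
    2 * (halvingLines P).card + P.card ≤ 2 * κ * P.card ∧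
      ∀ k : ℕ, 1 ≤ k → k < P.card → (kSets P k).card + P.card ≤ 2 * κ * P.card :=
  ⟨H19.cover_bound P hP κ c hc hconv,
    fun k hk1 hk2 => H19K.kset_cover P hP κ c hc hconv k hk1 hk2⟩

end Vale.Agent.Results.P065.ConvexCover
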