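import Mathlib
import Vale.Agent.Lib.P065.Defs
import Vale.Agent.Lib.P065.KDefs
import Vale.Agent.Lib.P065.LayerDefs
import Vale.Agent.Lib.P065.Count
import Vale.Agent.Lib.P065.Perturb
import Vale.Agent.Lib.P065.KCount
import Vale.Agent.Lib.P065.helper47.KSetInj
import Vale.Agent.Lib.P065.helper47.Layers

namespace Vale.Agent.Results.P065.ConvexLayers

open Vale.Agent.Lib.P065

/-- A finite planar point set `P` with no three collinear points and with `numLayers P` convex
layers has at most `(numLayers P - 1/2) * |P|` halving lines and, for every `1 ≤ k ≤ |P| - 1`, at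
most `(2 * numLayers P - 1) * |P|` `k`-sets (both with equality for convex position). -/
theorem result (P : Finset (ℝ × ℝ)) (hP : GenPos P) :
    2 * (halvingLines P).card + P.card ≤ 2 * numLayers P * P.card ∧
      ∀ k : ℕ, 1 ≤ k → k < P.card → (kSets P k).card + P.card ≤ 2 * numLayers P * P.card := by
  obtain ⟨lay, hlay, hext⟩ := H47.exists_peeling_labelling P
  have hgen : ∀ b ∈ P, ∃ v : ℝ × ℝ, (∀ q ∈ P, q ≠ b → xc b v q ≠ 0) ∧
      ∀ q ∈ P, q ≠ b → lay b ≤ lay q → 0 < xc b v q := by
    intro b hb
    obtain ⟨v, hv⟩ := hext b hb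
    exact perturb P b v (fun q => lay b ≤ lay q) hv
  have h2 : P.card ≤ ∑ p ∈ P, lay p := by
    have := Finset.card_nsmul_le_sum P lay 1 (fun p hp => (hlay p hp).1)
    simpa using this
  have h3 : (2 * numLayers P + 1) * P.card = 2 * numLayers P * P.card + P.card := by ring
  constructor
  · have h1 := layered_bound_gen P hP (numLayers P) lay hlay hgen
    omega
  · intro k hk1 hk2
    have h0 := H47.card_kSets_le P hP k hk1 hk2
    have h1 := layered_kedge_bound P hP (k - 1) (numLayers P) lay hlay hext
    omega

end Vale.Agent.Results.P065.ConvexLayers
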