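import Mathlib
import Vale.Agent.Lib.P065.Defs
import Vale.Agent.Lib.P065.KDefs
import Vale.Agent.Lib.P065.KCount
import Vale.Agent.Lib.P065.helper47.KSetInj

namespace Vale.Agent.Results.P065.LayeredKSets

open Vale.Agent.Lib.P065

/-- Let `P` be a finite planar point set with no three collinear points and let `lay` label the
points by `1, ..., L` so that every point `b` of `P` is a vertex of the convex hull of the points
with label at least `lay b` (there is a line through `b` with all other such points strictly on
one side; the convex-layer index is such a labelling). Then for every `1 ≤ k ≤ |P| - 1` the number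
of `k`-sets of `P` is at most `∑ p ∈ P, (2 * L + 1 - 2 * lay p)`, and in particular at most
`(2 * L - 1) * |P|` (with equality for point sets in convex position, `L = 1`). -/
theorem result (P : Finset (ℝ × ℝ)) (hP : GenPos P) (L : ℕ) (lay : ℝ × ℝ → ℕ)
    (hlay : ∀ p ∈ P, 1 ≤ lay p ∧ lay p ≤ L)
    (hext : ∀ b ∈ P, ∃ v : ℝ × ℝ, ∀ q ∈ P, q ≠ b → lay b ≤ lay q →
      0 < v.1 * (q.1 - b.1) + v.2 * (q.2 - b.2))
    (k : ℕ) (hk1 : 1 ≤ k) (hk2 : k < P.card) :
    (kSets P k).card + 2 * ∑ p ∈ P, lay p ≤ (2 * L + 1) * P.card ∧
      (kSets P k).card + P.card ≤ 2 * L * P.card := by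
  have h0 := H47.card_kSets_le P hP k hk1 hk2
  have h1 := layered_kedge_bound P hP (k - 1) L lay hlay hext
  have h2 : P.card ≤ ∑ p ∈ P, lay p := by
    have := Finset.card_nsmul_le_sum P lay 1 (fun p hp => (hlay p hp).1)
    simpa using this
  have h3 : (2 * L + 1) * P.card = 2 * L * P.card + P.card := by ring
  constructor
  · omega
  · omega

end Vale.Agent.Results.P065.LayeredKSets
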