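import Mathlib
import Vale.Agent.Lib.P065.Defs
import Vale.Agent.Lib.P065.helper93.SecondMoment

namespace Vale.Agent.Results.P065.SecondMoment

open Vale.Agent.Lib.P065

open scoped Classical

/-- Second-moment bounds for the halving lines of an arbitrary finite planar point set `P` with
no three collinear points, about an arbitrary centre `c`. The sums and counts run over the
ordered pairs `(p, q)` of distinct points of `P` spanning a halving line, so every halving line
is counted twice.

* For every vector `u`, the sum of the squared `u`-components of the halving segments is at most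
  twice the sum of the squared `u`-components of the points about `c` (with the double counting:
  constant `4`).
* The sum of the squared lengths of the halving segments is at most twice the sum of the squared
  distances of the points from `c`.
* At most `|P| / 2` halving lines `pq` have the foot of the perpendicular from `c` strictly
  between `p` and `q` (at most `|P|` ordered pairs).
* For every radius `ρ`, at most `|P| / 2` halving lines join two points of the closed disc of
  radius `ρ` about `c` that are more than `ρ` apart.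

Equality holds in all four for the vertices of a regular polygon and its centre (with `ρ` the
circumradius). -/
theorem result (P : Finset (ℝ × ℝ)) (hP : GenPos P) (c : ℝ × ℝ) :
    (∀ u : ℝ × ℝ,
      ∑ pq ∈ P.offDiag.filter (fun pq => IsHalving P pq.1 pq.2),
          (u.1 * (pq.1.1 - pq.2.1) + u.2 * (pq.1.2 - pq.2.2)) ^ 2 ≤
        4 * ∑ b ∈ P, (u.1 * (b.1 - c.1) + u.2 * (b.2 - c.2)) ^ 2) ∧
    (∑ pq ∈ P.offDiag.filter (fun pq => IsHalving P pq.1 pq.2),
          ((pq.1.1 - pq.2.1) ^ 2 + (pq.1.2 - pq.2.2) ^ 2) ≤
        4 * ∑ b ∈ P, ((b.1 - c.1) ^ 2 + (b.2 - c.2) ^ 2)) ∧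
    ((P.offDiag.filter (fun pq => IsHalving P pq.1 pq.2 ∧
        0 < (c.1 - pq.1.1) * (pq.2.1 - pq.1.1) + (c.2 - pq.1.2) * (pq.2.2 - pq.1.2) ∧
        0 < (c.1 - pq.2.1) * (pq.1.1 - pq.2.1) + (c.2 - pq.2.2) * (pq.1.2 - pq.2.2))).card ≤
      P.card) ∧
    (∀ ρ : ℝ, (P.offDiag.filter (fun pq => IsHalving P pq.1 pq.2 ∧
        (pq.1.1 - c.1) ^ 2 + (pq.1.2 - c.2) ^ 2 ≤ ρ ^ 2 ∧
        (pq.2.1 - c.1) ^ 2 + (pq.2.2 - c.2) ^ 2 ≤ ρ ^ 2 ∧
        ρ ^ 2 < (pq.1.1 - pq.2.1) ^ 2 + (pq.1.2 - pq.2.2) ^ 2)).card ≤ P.card) :=
  ⟨fun u => second_moment_dir P hP c u, second_moment_euclid P hP c, strip_count P hP c,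
    fun ρ => disc_count P hP c ρ⟩

end Vale.Agent.Results.P065.SecondMoment
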